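import Vale.Agent.P168.Model
import Vale.Agent.P168.Tel.Main

/-!
P168: the lower bound for bounded models from the cavity bound and the trial values.
-/

open Filter

namespace Vale.Agent.P168

/-- The cavity bound and the cavity trial values give the lower bound for bounded models. -/
theorem lowerBdd_of (hcb : CavityBound) (hct : CavityTrial) : LowerBdd := by
  intro Kc hKc lam hlam μ ν hμ hν hL ε hε
  obtain ⟨C, hC⟩ := telescope
  obtain ⟨L₀, h1, h2⟩ := hL
  set L := max L₀ 0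
  have h1' : ∀ᵐ θ ∂μ, ∀ σ, |θ σ| ≤ L := h1.mono fun θ h σ => (h σ).trans (le_max_left _ _)
  have h2' : ∀ᵐ x ∂ν, |x| ≤ L := h2.mono fun x h => h.trans (le_max_left _ _)
  obtain ⟨K0, hK0⟩ := hct Kc hKc lam hlam μ ν L hμ hν (le_max_right _ _) h1' h2' C 1 le_rfl (ε / 2)
    (half_pos hε)
  have hK : 1 ≤ max K0 1 := le_max_right _ _
  obtain ⟨A, hA, hN⟩ := hcb Kc hKc lam hlam μ ν L hμ hν (le_max_right _ _) h1' h2' (max K0 1) hK 1
    le_rfl (ε / 2) (half_pos hε)
  obtain ⟨v, hv, hv'⟩ := hK0 _ (le_max_left _ _) A (hC _ hK A hA)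
  exact hN.mono fun N hN' => ⟨v, hv, by linarith⟩

end Vale.Agent.P168
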